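import Vale.Agent.P354YE.Cls
import Vale.Agent.P354IF.Defs

/-! Letters l, m, mb in front of a word gain one power of r each. -/

open Finset

noncomputable section

namespace Vale.Agent.P354YE

open Vale.Agent.P354XG (Der D_mul D_add D_sub D_zero D_neg D_one)
open Vale.Agent.P354XZ hiding Lt
open Vale.Agent.P354YF
open Vale.Agent.P354FA Vale.Agent.P354FA.Gn

variable {A : Type} [CommRing A] [Algebra ℂ A] (C : Ch A) (N N0 : NF A) (m : ℕ)

/-- The points, and the size of the gauge. -/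
def Om : Set C.Pt := {x | (∀ g : Gi, C.rr x * C.jet m ((N.df N0 C).at g) x ≤ 1) ∧
  C.rr x * C.jet m N.al x ≤ 1}

def Gm (x : C.Pt) : ℝ := ∑ g : Gi, C.jet m ((N.df N0 C).at g) x

/-- Small coefficients. -/
def Gc (d : A) : Prop := P C (Om C N N0 m) m (Gm C N N0 m) d ∧
  P C (Om C N N0 m) m (fun _ => 1) (C.r * d)

variable {C N N0 m} {t : Fin 4 → A} {d : A}

theorem P_r (h : C.Is) {Ω : Set C.Pt} (e : ∀ x ∈ Ω, C.rr x * C.jet m d x ≤ 1) :
    P C Ω m (fun _ => 1) (C.r * d) := by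
  obtain ⟨K, K0, hK⟩ := sy_jet h (sy_r h) m
  refine ⟨K, K0, fun x hx => (hK d x).trans (mul_le_mul_of_nonneg_left ?_ K0)⟩
  rw [neg_neg, Real.rpow_one]; exact e x hx

theorem Gc.zero : Gc C N N0 m 0 := ⟨P.zero, P.zero.of (mul_zero _)⟩

theorem Gc.neg (e : Gc C N N0 m d) : Gc C N N0 m (-d) := ⟨e.1.neg, e.2.neg.of (mul_neg _ _)⟩

theorem Gc.c (h : C.Is) (e : Gc C N N0 m d) : Gc C N N0 m (C.c d) :=
  ⟨e.1.c h, (e.2.c h).of (by rw [map_mul, h.c_r])⟩

theorem Gc.of {d' : A} (e : Gc C N N0 m d) (b : d' = d) : Gc C N N0 m d' := b ▸ e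

theorem gc_at (h : C.Is) (g : Gi) : Gc C N N0 m ((N.df N0 C).at g) :=
  ⟨⟨1, zero_le_one, fun x _ => by
    rw [one_mul]
    exact single_le_sum (f := fun g : Gi => C.jet m ((N.df N0 C).at g) x) (fun _ _ => jet0 ..)
      (mem_univ g)⟩, P_r h fun _ hx => hx.1 g⟩

theorem gc_cb (h : C.Is) (b : Bool) (g : Gi) : Gc C N N0 m (C.cb b ((N.df N0 C).at g)) := by
  cases b
  exacts [gc_at h g, (gc_at h g).c h]

theorem sy_rpow (h : C.Is) (i : ℕ) : C.Sy (-i) (C.r ^ i) := by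
  induction i with
  | zero => simpa using sy_one h
  | succ i ih => rw [pow_succ]; exact sy_mul' h ih (sy_r h) (by push_cast; linarith)

theorem Gc.bd (h : C.Is) (e : Gc C N N0 m d) {p p0 : A} (b : p - p0 = d) (s0 : C.Sy 1 p0) :
    P C (Om C N N0 m) m (fun _ => 1) (C.r * p) :=
  (e.2.add (P.sy0 h (sy_mul' h (sy_r h) s0 (by norm_num)))).of (by rw [← b]; ring)

/-- The components of the two frames. -/
structure Cp (C : Ch A) (N N0 : NF A) (m : ℕ) (z : Lt) (p p0 : Fin 5 → A) : Prop where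
  E : Eh C N z = C.vf p
  E0 : Eh C N0 z = C.vf p0
  b0 : P C (Om C N N0 m) m (fun _ => 1) (C.r * p 0)
  d1 : Gc C N N0 m (C.ri * p 1 - C.ri * p0 1)
  d2 : Gc C N N0 m (p 2 - p0 2)
  d3 : Gc C N N0 m (p 3 - p0 3)
  d4 : Gc C N N0 m (p 4 - p0 4)
  s1 : C.Sy 0 (p0 1)
  s2 : C.Sy 1 (p0 2)
  s3 : C.Sy 1 (p0 3)
  s4 : C.Sy 1 (p0 4)
  gm : Gc C N N0 m (gm C N z - gm C N0 z)
  Gh : ∀ g, sh g ≠ 0 → Gc C N N0 m (Gh C N z g - Gh C N0 z g)

variable (a : N.Ga N0 C t) (j : C.J)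
include a j

theorem ex_cp {z : Lt} (hz : z ≠ (true, true)) : ∃ p p0, Cp C N N0 m z p p0 := by
  have h := a.ch
  have r := a.rf
  have m3 : C.Sy 1 (N0.mc 3) := by
    simpa using sy_add (sy_mono h one_le_two r.ma.2.1) (sy_ri h)
  have m1 := sy_mono h zero_le_one r.m0.2
  have m2 := sy_mono h one_le_two r.ma.1
  have m4 := sy_mono h one_le_two r.ma.2.2
  have b0 : P C (Om C N N0 m) m (fun _ => 1) (C.r * N.mc 0) :=
    (((gc_at h (.inr (.inl 4))).bd h (p := N.mc 0 - N.al) (p0 := N0.mc 0 - N0.al) rfl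
      (by rw [r.al, sub_zero]; exact r.m0.1)).add (P_r h fun _ hx => hx.2)).of (by ring)
  have G : z ≠ (false, false) → ∀ g, sh g ≠ 0 → Gc C N N0 m (Gh C N z g - Gh C N0 z g) :=
    fun e g hg => (gc_cb h _ _).of (Gh_df a e hg)
  match z, hz, G with
  | (false, false), _, _ =>
    have e : C.R = C.vf ![0, 1, 0, 0, 0] := Derivation.ext fun f => by simp [vf_ap]
    exact ⟨_, _, e, e, P.zero.of (by simp), Gc.zero.of (sub_self _), Gc.zero.of (sub_self _),
      Gc.zero.of (sub_self _), Gc.zero.of (sub_self _), sy_one h, sy_zero, sy_zero, sy_zero,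
      Gc.zero.of (sub_self _), fun g _ => Gc.zero.of (Gh_l a g)⟩
  | (false, true), _, G =>
    exact ⟨N.mc, N0.mc, rfl, rfl, b0, gc_at h (.inr (.inl 5)), gc_at h (.inr (.inl 6)),
      gc_at h (.inr (.inl 7)), gc_at h (.inr (.inl 8)), m1, m2, m3, m4, gc_at h (.inr (.inl 3)),
      G (by decide)⟩
  | (true, false), _, G =>
    refine ⟨C.cj N.mc, C.cj N0.mc, rfl, rfl, (b0.c h).of (by rw [map_mul, h.c_r]; rfl),
      ((gc_at h (.inr (.inl 5))).c h).of ?_, ((gc_at h (.inr (.inl 7))).c h).of (map_sub C.c _ _).symm,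
      ((gc_at h (.inr (.inl 6))).c h).of (map_sub C.c _ _).symm,
      ((gc_at h (.inr (.inl 8))).c h).neg.of ?_, sy_c h j m1, sy_c h j m3, sy_c h j m2,
      sy_neg (sy_c h j m4), ((gc_at h (.inr (.inl 3))).c h).of (map_sub C.c _ _).symm, G (by decide)⟩
    · simp [Ch.cj, Un.at, NF.df, NF.g1, c_ri h]
    · simp [Ch.cj, Un.at, NF.df, NF.g1]; ring

theorem lett (s : ℕ) {z : Lt} (hz : z ≠ (true, true)) : Let C (Om C N N0 m) (Vw N N0 C)
    (fun x => Gm C N N0 m x / C.rr x ^ s) s m z (Eh C N z) := by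
  have h := a.ch
  obtain ⟨p, p0, c⟩ := ex_cp (m := m) a j hz
  have b1 : P C (Om C N N0 m) m (fun _ => 1) (p 1) :=
    (c.d1.2.add (P.sy0 h c.s1)).of (by linear_combination (p0 1 - p 1) * h.hr)
  refine ⟨fun n hn => ?_, b1.of ?_, fun n hn i w k hw => ?_⟩
  · rw [c.E]
    exact Op.vf h (c.b0.mono hn) (b1.mono hn) ((c.d2.bd h rfl c.s2).mono hn)
      ((c.d3.bd h rfl c.s3).mono hn) ((c.d4.bd h rfl c.s4).mono hn)
  · rw [c.E, vf_ap, T_r h, R_r h, an_r h, an_r h, an_r h]; ring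
  obtain ⟨v, rfl⟩ := ofFn_ex w hw
  have lg : ∀ {d σ : A}, Gc C N N0 m d → C.Sy (3 + (s + i : ℕ)) σ → L C (Om C N N0 m) (Vw N N0 C)
      (fun x => Gm C N N0 m x / C.rr x ^ s) s n (i + 1) (d * (C.r ^ (i + 1) * σ)) := fun e b =>
    .g ((e.1.mono hn).mul (P.sy (s := s) h (sy_mul' h (sy_rpow h (i + 1)) b (by push_cast; linarith)))
      fun _ => (div_eq_mul_inv _ _).symm)
  have lv : ∀ (v : Fin (s + i) → Lt) (k : ℕ), k ≤ 4 → L C (Om C N N0 m) (Vw N N0 C)
      (fun x => Gm C N N0 m x / C.rr x ^ s) s n (i + 1) (C.r ^ i * VN C N N0 false (List.ofFn v) k) :=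
    fun v k hk => (L.v (List.ofFn v) ⟨k, by omega⟩ i.lt_succ_self List.length_ofFn
      (P.sy0 h (sy_one h))).of (one_mul _).symm
  have k4 : (k : ℕ) ≤ 4 := Nat.lt_succ_iff.1 k.2
  have q := sy_ofFn h a.rf j (s + i) false v k
  have lA : ∀ g, sh g ≠ 0 → L C (Om C N N0 m) (Vw N N0 C)
      (fun x => Gm C N N0 m x / C.rr x ^ s) s n (i + 1) (C.r ^ (i + 1) *
        (Gh C N z g * Ah C N g false (List.ofFn v) k - Gh C N0 z g * Ah C N0 g false (List.ofFn v) k)) :=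
    fun g hg => by
      have s0 : C.Sy (3 + (s + i : ℕ)) (Ah C N0 g false (List.ofFn v) k) := by
        rw [Ah_eq]
        exact sy_add (sy_zmul h _ (sy_ofFn h a.rf j _ _ _ _))
          (sy_sum _ fun _ _ => sy_zmul h _ (sy_ofFn h a.rf j _ _ _ _))
      have s1 : L C (Om C N N0 m) (Vw N N0 C) (fun x => Gm C N N0 m x / C.rr x ^ s) s n (i + 1)
          (wc g false k * (C.r ^ i * VN C N N0 false (List.ofFn v) (wt g k))) := by
        by_cases e : wc g false k = 0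
        · exact (L.g P.zero).of (by rw [e, Int.cast_zero, zero_mul])
        · exact (lv v _ (by cases g <;> simp [wc, wt] at e ⊢ <;> omega)).int h _
      refine (((s1.add (L.sum fun v2 => (lv v2 k k4).int h (Mx g (List.ofFn v) (List.ofFn v2)))).bmul
        (((c.Gh g hg).bd h rfl (sy_Gh1 h a.rf j z g)).mono hn)).add (lg (c.Gh g hg) s0)).of ?_
      rw [Ah_eq C N, Ah_eq C N0]
      simp only [VN, mul_sub, sum_sub_distrib, mul_left_comm (Mx g _ _ : A), ← mul_sum]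
      ring
  refine ((((((((lg c.d1 (sy_X h 1 q)).add (lg c.d2 (sy_an h 0 q))).add (lg c.d3 (sy_an h 1 q))).add
    (lg c.d4 (sy_an h 2 q))).add (lA F (by decide))).add (lA E (by decide))).add
    (lA Fb (by decide))).add ((lA Eb (by decide)).add ((((lv v k k4).bmul ((c.gm.bd h rfl
      (sy_mono h one_le_two (sy_gm h a.rf j z))).mono hn)).add (lg c.gm q)).int h
        (bw (List.ofFn v) k)))).of ?_
  have e1 := hat h a.is j z false (List.ofFn v) k
  have e2 := hat h a.rf.is j z false (List.ofFn v) k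
  have e3 : Eh C N z (Jh C N0 false (List.ofFn v) k) - Eh C N0 z (Jh C N0 false (List.ofFn v) k) =
      (C.ri * p 1 - C.ri * p0 1) * C.X 1 (Jh C N0 false (List.ofFn v) k) +
      (p 2 - p0 2) * C.an 0 (Jh C N0 false (List.ofFn v) k) +
      (p 3 - p0 3) * C.an 1 (Jh C N0 false (List.ofFn v) k) +
      (p 4 - p0 4) * C.an 2 (Jh C N0 false (List.ofFn v) k) := by
    rw [c.E, c.E0, vf_ap, vf_ap, q.1, R_eq h]; ring
  simp only [Vw, VN, D_sub]
  linear_combination C.r ^ (i + 1) * (e2 - e1 + e3)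

omit a j in
theorem yex : P354IF.YEX := by
  intro A _ _ C N N0 t a s m
  rcases isEmpty_or_nonempty C.Pt with hP | ⟨⟨j, -⟩⟩
  · exact ⟨0, fun x => hP.elim x⟩
  have h := a.ch
  have key : ∀ q : List Lt × List Lt × Fin 5, ∃ B, 0 ≤ B ∧ (q.1.length ≤ m → q.2.1.length = s →
      (true, true) ∉ q.1 → ∀ x ∈ Om C N N0 m,
      C.rr x ^ q.1.length * C.md x (Vw N N0 C (q.1 ++ q.2.1) q.2.2) ≤
        B * (C.jet q.1.length (Vw N N0 C q.2.1 q.2.2) x + ∑ i ∈ range q.1.length, C.rr x ^ i *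
          ∑ j : Fin (s + i) → Lt, ∑ k' : Fin 5, C.md x (Vw N N0 C (List.ofFn j) k') +
          Gm C N N0 m x / C.rr x ^ s)) := by
    rintro ⟨y, w, k⟩
    by_cases e : y.length ≤ m ∧ w.length = s ∧ (true, true) ∉ y
    · obtain ⟨f, K, K0, h1, h2⟩ := main h e.2.1 k y
        (fun z hz => lett (m := m) a j s fun e' => e.2.2 (e' ▸ hz)) 0 (by omega)
      have p : ∀ x, 0 ≤ Gm C N N0 m x / C.rr x ^ s := fun x =>
        div_nonneg (sum_nonneg fun _ _ => jet0 ..) (pow_pos (rr_pos h x) _).le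
      obtain ⟨B, B0, hB⟩ := h2.le h p
      refine ⟨K + B, add_nonneg K0 B0, fun _ _ _ x hx => ?_⟩
      have b1 := h1 x hx
      have b2 := hB x hx
      have b3 := md_add (x := x) (C.r ^ y.length * Vw N N0 C (y ++ w) k - f) f
      rw [sub_add_cancel, md_mul, md_rpow h] at b3
      rw [jet_zero, zero_add] at b1
      have b4 := mul_nonneg B0 (jet0 (x := x) y.length (Vw N N0 C w k))
      have b5 := mul_nonneg K0 (add_nonneg (sum_nonneg fun i (_ : i ∈ range y.length) =>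
        mul_nonneg (pow_pos (rr_pos h x) i).le (sum_nonneg fun (j : Fin (s + i) → Lt) (_ : j ∈ univ) =>
          sum_nonneg fun (k' : Fin 5) (_ : k' ∈ univ) => md0 (x := x) (Vw N N0 C (List.ofFn j) k'))) (p x))
      simp only
      linarith
    · exact ⟨0, le_rfl, fun h1 h2 h3 => absurd ⟨h1, h2, h3⟩ e⟩
  choose B B0 hB using key
  obtain ⟨B1, hB1⟩ := (((List.finite_length_le Lt m).prod ((List.finite_length_eq Lt s).prod
    (Set.finite_univ (α := Fin 5)))).image B).bddAbove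
  refine ⟨B1, fun x h1 h2 y w hy hw ht k => (hB (y, w, k) hy hw ht x ⟨h1, h2⟩).trans
    (mul_le_mul_of_nonneg_right (hB1 ⟨(y, w, k), ⟨hy, hw, trivial⟩, rfl⟩) ?_)⟩
  exact add_nonneg (add_nonneg (jet0 ..) (sum_nonneg fun i _ => mul_nonneg
    (pow_pos (rr_pos h x) i).le (sum_nonneg fun _ _ => sum_nonneg fun _ _ => md0 _)))
    (div_nonneg (sum_nonneg fun _ _ => jet0 ..) (pow_pos (rr_pos h x) _).le)

end Vale.Agent.P354YE
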