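import Vale.Agent.P354FA.Bs

/-! Uniform bounds of jets on a set of points, and the class of the terms of lower order. -/

open Finset

noncomputable section

namespace Vale.Agent.P354YE

open Vale.Agent.P354XG (Der D_mul D_add D_sub D_zero D_neg D_one)
open Vale.Agent.P354XZ hiding Lt
open Vale.Agent.P354YF
open Vale.Agent.P354FA (Lt)

variable {A : Type} [CommRing A] [Algebra ℂ A]

/-- The jets of order n of f are bounded by a multiple of φ on Ω. -/
def P (C : Ch A) (Ω : Set C.Pt) (n : ℕ) (φ : C.Pt → ℝ) (f : A) : Prop :=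
  ∃ K, 0 ≤ K ∧ ∀ x ∈ Ω, C.jet n f x ≤ K * φ x

variable {C : Ch A} {Ω : Set C.Pt} {n n' i i' s : ℕ} {φ ψ χ Θ : C.Pt → ℝ} {f g K : A}

theorem P.zero : P C Ω n φ 0 := ⟨0, le_rfl, fun x _ => by rw [jet_null, zero_mul]⟩

theorem P.add (a : P C Ω n φ f) (b : P C Ω n φ g) : P C Ω n φ (f + g) := by
  obtain ⟨K, K0, hK⟩ := a
  obtain ⟨L, L0, hL⟩ := b
  exact ⟨K + L, add_nonneg K0 L0, fun x hx => by
    linarith [jet_add (x := x) n f g, hK x hx, hL x hx]⟩

theorem P.neg (a : P C Ω n φ f) : P C Ω n φ (-f) := by simpa only [P, jet_neg] using a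

theorem P.c (h : C.Is) (a : P C Ω n φ f) : P C Ω n φ (C.c f) := by simpa only [P, jet_c h] using a

theorem P.mono (a : P C Ω n φ f) (e : n' ≤ n) : P C Ω n' φ f := by
  obtain ⟨K, K0, hK⟩ := a
  exact ⟨K, K0, fun x hx => (jet_mono e f).trans (hK x hx)⟩

theorem P.of (a : P C Ω n φ f) (e : g = f) : P C Ω n φ g := e ▸ a

theorem P.mul (a : P C Ω n φ f) (b : P C Ω n ψ g) (e : ∀ x, φ x * ψ x = χ x) :
    P C Ω n χ (f * g) := by
  obtain ⟨K, K0, hK⟩ := a
  obtain ⟨L, L0, hL⟩ := b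
  refine ⟨2 ^ n * (K * L), by positivity, fun x hx => (jet_mul_le n f g).trans ?_⟩
  rw [← e, mul_assoc, mul_mul_mul_comm]
  exact mul_le_mul_of_nonneg_left (mul_le_mul (hK x hx) (hL x hx) (jet0 ..)
    ((jet0 ..).trans (hK x hx))) (by positivity)

theorem P.sy (h : C.Is) (e : C.Sy s f) : P C Ω n (fun x => (C.rr x ^ s)⁻¹) f := by
  obtain ⟨K, K0, hK⟩ := sy_pos h e n
  refine ⟨K, K0, fun x _ => (hK x).trans (le_of_eq ?_)⟩
  rw [Real.rpow_neg (rr_pos h x).le, Real.rpow_natCast]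

theorem P.sy0 (h : C.Is) (e : C.Sy 0 f) : P C Ω n (fun _ => 1) f := by
  simpa using P.sy (Ω := Ω) (n := n) (s := 0) h (by simpa using e)

theorem P.bmul (a : P C Ω n (fun _ => 1) f) (b : P C Ω n ψ g) : P C Ω n ψ (f * g) :=
  a.mul b fun _ => one_mul _

/-- Operators of order one. -/
def Op (C : Ch A) (Ω : Set C.Pt) (n : ℕ) (Y : A → A) : Prop :=
  ∃ K, 0 ≤ K ∧ ∀ f, ∀ x ∈ Ω, C.jet n (Y f) x ≤ K * C.jet (n + 1) f x

theorem Op.ap {Y : A → A} (o : Op C Ω n Y) (a : P C Ω (n + 1) φ f) : P C Ω n φ (Y f) := by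
  obtain ⟨K, K0, hK⟩ := o
  obtain ⟨L, L0, hL⟩ := a
  refine ⟨K * L, mul_nonneg K0 L0, fun x hx => (hK f x hx).trans ?_⟩
  rw [mul_assoc]
  exact mul_le_mul_of_nonneg_left (hL x hx) K0

theorem Op.add {Y Z : A → A} (o : Op C Ω n Y) (p : Op C Ω n Z) : Op C Ω n fun f => Y f + Z f := by
  obtain ⟨K, K0, hK⟩ := o
  obtain ⟨L, L0, hL⟩ := p
  exact ⟨K + L, add_nonneg K0 L0, fun f x hx => by
    linarith [jet_add (x := x) n (Y f) (Z f), hK f x hx, hL f x hx]⟩

theorem Op.bmul {Y : A → A} (a : P C Ω n (fun _ => 1) g) (o : Op C Ω n Y) :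
    Op C Ω n fun f => g * Y f := by
  obtain ⟨K, K0, hK⟩ := o
  obtain ⟨L, L0, hL⟩ := a
  refine ⟨2 ^ n * (L * K), by positivity, fun f x hx => (jet_mul_le n _ _).trans ?_⟩
  have := mul_le_mul (hL x hx) (hK f x hx) (jet0 ..) (by positivity)
  rw [mul_assoc, mul_assoc]
  rw [mul_one] at this
  exact mul_le_mul_of_nonneg_left this (by positivity)

theorem Op.X (a : Fin 5) : Op C Ω n (C.X a) :=
  ⟨1, zero_le_one, fun f x _ => by rw [one_mul]; exact jet_der n a f⟩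

theorem Op.an (h : C.Is) (a : Fin 3) : Op C Ω n (C.an a) := by
  obtain ⟨K, K0, hK⟩ := jet_an h n
  exact ⟨K, K0, fun f x _ => hK a f x⟩

theorem Op.vf (h : C.Is) {p : Fin 5 → A} (b0 : P C Ω n (fun _ => 1) (C.r * p 0))
    (b1 : P C Ω n (fun _ => 1) (p 1)) (b2 : P C Ω n (fun _ => 1) (C.r * p 2))
    (b3 : P C Ω n (fun _ => 1) (C.r * p 3)) (b4 : P C Ω n (fun _ => 1) (C.r * p 4)) :
    Op C Ω n fun f => C.r * C.vf p f := by
  have := ((((Op.bmul b0 (Op.X 0)).add (Op.bmul b1 (Op.X 1))).add (Op.bmul b2 (Op.an h 0))).add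
    (Op.bmul b3 (Op.an h 1))).add (Op.bmul b4 (Op.an h 2))
  refine (congrArg (Op C Ω n) (funext fun f => ?_)).mp this
  rw [vf_ap, X0, X1]; ring

/-- The terms of lower order. -/
inductive L (C : Ch A) (Ω : Set C.Pt) (V : List Lt → Fin 5 → A) (Θ : C.Pt → ℝ) (s n i : ℕ) :
    A → Prop
  | v {K : A} {i' : ℕ} (w : List Lt) (k : Fin 5) : i' < i → w.length = s + i' →
      P C Ω n (fun _ => 1) K → L C Ω V Θ s n i (K * (C.r ^ i' * V w k))
  | g {f : A} : P C Ω n Θ f → L C Ω V Θ s n i f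
  | add {f g : A} : L C Ω V Θ s n i f → L C Ω V Θ s n i g → L C Ω V Θ s n i (f + g)

variable {V : List Lt → Fin 5 → A}

theorem L.of (a : L C Ω V Θ s n i f) (e : g = f) : L C Ω V Θ s n i g := e ▸ a

theorem L.bmul (b : P C Ω n (fun _ => 1) K) (a : L C Ω V Θ s n i f) : L C Ω V Θ s n i (K * f) := by
  induction a with
  | v w k h1 h2 h3 => exact (L.v w k h1 h2 (b.bmul h3)).of (mul_assoc _ _ _).symm
  | g h1 => exact .g (b.bmul h1)
  | add _ _ h1 h2 => exact (h1.add h2).of (mul_add _ _ _)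

theorem L.int (h : C.Is) (z : ℤ) (a : L C Ω V Θ s n i f) : L C Ω V Θ s n i (z * f) :=
  a.bmul (P.sy0 h (P354FA.sy_int h z))

theorem L.sub (h : C.Is) (a : L C Ω V Θ s n i f) (b : L C Ω V Θ s n i g) :
    L C Ω V Θ s n i (f - g) := (a.add (b.int h (-1))).of (by push_cast; ring)

theorem L.sum {ι : Type} [Fintype ι] {f : ι → A} (a : ∀ x, L C Ω V Θ s n i (f x)) :
    L C Ω V Θ s n i (∑ x, f x) :=
  sum_induction f _ (fun _ _ => L.add) (.g P.zero) fun x _ => a x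

theorem L.mono (a : L C Ω V Θ s n i f) (e : i ≤ i') : L C Ω V Θ s n i' f := by
  induction a with
  | v w k h1 h2 h3 => exact .v w k (h1.trans_le e) h2 h3
  | g h1 => exact .g h1
  | add _ _ h1 h2 => exact h1.add h2

theorem ofFn_ex (w : List Lt) {l : ℕ} (e : w.length = l) : ∃ j : Fin l → Lt, List.ofFn j = w := by
  subst e; exact ⟨w.get, List.ofFn_get w⟩

theorem md_rpow (h : C.Is) (x : C.Pt) (i : ℕ) : C.md x (C.r ^ i) = C.rr x ^ i := by
  induction i with
  | zero => rw [pow_zero, pow_zero, md_one]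
  | succ i ih => rw [pow_succ, pow_succ, md_mul, ih, md_r h]

theorem L.le (h : C.Is) (hΘ : ∀ x, 0 ≤ Θ x) (a : L C Ω V Θ s 0 i f) : ∃ B, 0 ≤ B ∧ ∀ x ∈ Ω,
    C.md x f ≤ B * (∑ i' ∈ range i, C.rr x ^ i' * ∑ j : Fin (s + i') → Lt, ∑ k : Fin 5,
      C.md x (V (List.ofFn j) k) + Θ x) := by
  have p : ∀ x i', 0 ≤ C.rr x ^ i' * ∑ j : Fin (s + i') → Lt, ∑ k : Fin 5,
      C.md x (V (List.ofFn j) k) := fun x i' => mul_nonneg (pow_pos (rr_pos h x) _).le
    (sum_nonneg fun _ _ => sum_nonneg fun _ _ => md0 _)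
  induction a with
  | @v K i' w k h1 h2 h3 =>
    obtain ⟨B, B0, hB⟩ := h3
    obtain ⟨j, rfl⟩ := ofFn_ex w h2
    refine ⟨B, B0, fun x hx => ?_⟩
    have e := hB x hx
    rw [jet_zero, mul_one] at e
    rw [md_mul, md_mul, md_rpow h]
    refine mul_le_mul e (le_add_of_le_of_nonneg (le_trans ?_ (single_le_sum (fun i' _ => p x i')
      (mem_range.2 h1))) (hΘ x)) (mul_nonneg (pow_pos (rr_pos h x) _).le (md0 _)) B0
    exact mul_le_mul_of_nonneg_left ((single_le_sum (fun _ _ => md0 _) (mem_univ k)).trans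
      (single_le_sum (f := fun j : Fin (s + i') → Lt => ∑ k : Fin 5, C.md x (V (List.ofFn j) k))
        (fun _ _ => sum_nonneg fun _ _ => md0 _) (mem_univ j))) (pow_pos (rr_pos h x) _).le
  | g h1 =>
    obtain ⟨B, B0, hB⟩ := h1
    refine ⟨B, B0, fun x hx => (jet_zero _).ge.trans ((hB x hx).trans ?_)⟩
    exact mul_le_mul_of_nonneg_left (le_add_of_nonneg_left (sum_nonneg fun i' _ => p x i')) B0
  | @add f g _ _ h1 h2 =>
    obtain ⟨B, B0, hB⟩ := h1
    obtain ⟨B', B0', hB'⟩ := h2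
    exact ⟨B + B', add_nonneg B0 B0', fun x hx => by
      linarith [md_add (x := x) f g, hB x hx, hB' x hx]⟩

theorem D_rpow (D : Der A) (r : A) (i : ℕ) : r * D (r ^ i) = i * D r * r ^ i := by
  induction i with
  | zero => simp
  | succ i ih => rw [pow_succ, D_mul]; push_cast; linear_combination r * ih

/-- What is needed from a letter z with the field E. -/
structure Let (C : Ch A) (Ω : Set C.Pt) (V : List Lt → Fin 5 → A) (Θ : C.Pt → ℝ) (s m : ℕ)
    (z : Lt) (E : Der A) : Prop where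
  op : ∀ n ≤ m, Op C Ω n fun f => C.r * E f
  br : P C Ω m (fun _ => 1) (E C.r)
  rem : ∀ n ≤ m, ∀ i w k, List.length w = s + i →
    L C Ω V Θ s n (i + 1) (C.r ^ i * (C.r * V (z :: w) k - C.r * E (V w k)))

variable {m : ℕ} {z : Lt} {E : Der A}

theorem Let.key (h : C.Is) (e : Let C Ω V Θ s m z E) (hn : n ≤ m) {w : List Lt} (k : Fin 5)
    (hw : w.length = s + i) (b : P C Ω (n + 1) (fun _ => 1) K) : L C Ω V Θ s n (i + 1)
      (K * (C.r ^ (i + 1) * V (z :: w) k) - C.r * E (K * (C.r ^ i * V w k))) := by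
  have b' := b.mono n.le_succ
  refine ((((e.rem n hn i w k hw).bmul b').sub h (.v w k i.lt_succ_self hw ((e.op n hn).ap b))).sub h
    (.v w k i.lt_succ_self hw (b'.bmul ((P.sy0 h (sy_nat h i)).bmul (e.br.mono hn))))).of ?_
  rw [D_mul, D_mul]
  linear_combination -(K * V w k) * D_rpow E C.r i

theorem Let.cl (h : C.Is) (e : Let C Ω V Θ s m z E) (hn : n ≤ m)
    (a : L C Ω V Θ s (n + 1) i f) : L C Ω V Θ s n (i + 1) (C.r * E f) := by
  induction a with
  | @v K i' w k h1 h2 h3 =>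
    exact ((L.v (i' := i' + 1) (z :: w) k (Nat.succ_lt_succ h1) (by rw [List.length_cons, h2]; rfl)
      (h3.mono n.le_succ)).sub h ((e.key h hn k h2 h3).mono (by omega))).of (by ring)
  | g h1 => exact .g ((e.op n hn).ap h1)
  | add _ _ h1 h2 => exact (h1.add h2).of (by rw [D_add, mul_add])

theorem main (h : C.Is) {E : Lt → Der A} {w : List Lt} (hw : w.length = s) (k : Fin 5)
    (y : List Lt) (e : ∀ z ∈ y, Let C Ω V Θ s m z (E z)) : ∀ n, n + y.length ≤ m →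
    ∃ f K, 0 ≤ K ∧ (∀ x ∈ Ω, C.jet n f x ≤ K * C.jet (n + y.length) (V w k) x) ∧
      L C Ω V Θ s n y.length (C.r ^ y.length * V (y ++ w) k - f) := by
  induction y with
  | nil => exact fun n _ => ⟨V w k, 1, zero_le_one, fun x _ => (one_mul _).ge,
      (L.g P.zero).of (by simp)⟩
  | cons z y ih =>
    intro n hn
    rw [List.length_cons] at hn ⊢
    obtain ⟨f, K, K0, h1, h2⟩ := ih (fun z hz => e z (List.mem_cons_of_mem _ hz)) (n + 1) (by omega)
    have ez := e z List.mem_cons_self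
    obtain ⟨K', K0', h3⟩ := ez.op n (by omega)
    refine ⟨C.r * E z f, K' * K, mul_nonneg K0' K0, fun x hx => (h3 f x hx).trans ?_,
      ((ez.key h (by omega) k (w := y ++ w) (by rw [List.length_append, hw, add_comm])
        (P.sy0 h (sy_one h))).add (ez.cl h (by omega) h2)).of ?_⟩
    · rw [mul_assoc, show n + (y.length + 1) = n + 1 + y.length by omega]
      exact mul_le_mul_of_nonneg_left (h1 x hx) K0'
    · rw [one_mul, one_mul, D_sub, List.cons_append]; ring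

end Vale.Agent.P354YE
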